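import Vale.Agent.P314.Main

/-!
Deterministic black-box identity testing for noncommutative formulas in polynomial time.
-/

namespace Vale.Agent.Results.P314.AHittingTuple

open Vale.Agent.P314

universe u

/-- For every field `F` and all binary codes `enc` of its elements, there are hitting sets
`H n s` for the noncommutative formulas of size at most `s` in `n` variables whose binary code is
computed from `n` and `s` (in unary) by a deterministic Turing machine in polynomial time; each
`H n s` is a single tuple of matrices of dimension at most `((n + 1) (s + 1) ^ 3) ^ 4` with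
entries `0` and `1`. -/
theorem result (F : Type u) [Field F] (enc : F → List Bool) :
    ∃ H : (n : ℕ) → ℕ → List (Tuple F n),
      (∀ n s, IsHittingSet s (H n s)) ∧
      (∃ M : Turing.TM2ComputableInPolyTime codeInput (fun w : List Bool => w)
          (fun x : ℕ × ℕ => codeList ((H x.1 x.2).map (Tuple.code enc))),
        ∀ k, Finite (M.tm.Γ k)) ∧
      ∀ n s, (H n s).length = 1 ∧ ∀ t ∈ H n s, t.d ≤ ((n + 1) * (s + 1) ^ 3) ^ 4 ∧
        ∀ i j k, t.T i j k = 0 ∨ t.T i j k = 1 :=
  main F enc

end Vale.Agent.Results.P314.AHittingTuple
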